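import Vale.Agent.P281.H303.Z8.Core
import Vale.Agent.P281.H303.R.Link
import Vale.Agent.P281.H364.MM.LinkFin

/-!
# P281 (helper303): the inputs on linked fibrations
-/

namespace Vale.Agent.P281.H303.Z8

theorem linkLe : LinkLe := fun _ _ _ _ _ _ _ _ _ _ _ _ _ _ _ _ _ _ hf hl =>
  ⟨(R.linked _ _ hl).1.1 hf, (R.linked _ _ hl).2 hf⟩

theorem fibLink : FibLink := H364.MM.fibLinked

end Vale.Agent.P281.H303.Z8
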